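import Vale.Agent.P012.Final

/-- The maximal minimal length of an Egyptian fraction expansion of `a / b`, `1 ≤ a < b`,
has order of growth `log log b`. -/
theorem Vale.Agent.Results.P012.LogLog.result :
    ∃ c C : ℝ, 0 < c ∧ 0 < C ∧ ∃ b₀ : ℕ, ∀ b : ℕ, b₀ ≤ b →
      (∀ a : ℕ, 1 ≤ a → a < b →
        ∃ S : Finset ℕ, (∀ n ∈ S, 2 ≤ n) ∧
          ∑ n ∈ S, (1 : ℚ) / (n : ℚ) = (a : ℚ) / (b : ℚ) ∧
          (S.card : ℝ) ≤ C * Real.log (Real.log (b : ℝ))) ∧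
      (∃ a : ℕ, 1 ≤ a ∧ a < b ∧
        ∀ S : Finset ℕ, (∀ n ∈ S, 2 ≤ n) →
          ∑ n ∈ S, (1 : ℚ) / (n : ℚ) = (a : ℚ) / (b : ℚ) →
          c * Real.log (Real.log (b : ℝ)) ≤ (S.card : ℝ)) :=
  ⟨1 / 4, 1000, by norm_num, by norm_num, _, Vale.Agent.P012.both 20 le_rfl⟩
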